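import Mathlib

/-! Prekopa-Leindler at the midpoint in `EuclideanSpace ℝ (Fin d)` (row 82, task PL). -/

set_option autoImplicit false
open MeasureTheory Set
open scoped ENNReal NNReal Pointwise

namespace Crest.Agent.R82.PL

/-- one-dimensional Brunn-Minkowski for compact sets, sumset form -/
lemma bm_compact (A B C : Set ℝ) (hA : IsCompact A) (hB : IsCompact B) (hAn : A.Nonempty)
    (hBn : B.Nonempty) (h : ∀ a ∈ A, ∀ b ∈ B, a + b ∈ C) :
    volume A + volume B ≤ volume C := by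
  obtain ⟨a0, ha0, hamax⟩ := hA.exists_isMaxOn hAn continuousOn_id
  obtain ⟨b0, hb0, hbmin⟩ := hB.exists_isMinOn hBn continuousOn_id
  have hamax' : ∀ a ∈ A, a ≤ a0 := fun a ha => hamax ha
  have hbmin' : ∀ b ∈ B, b0 ≤ b := fun b hb => hbmin hb
  have h1 : volume ((fun x => x + b0) '' A) = volume A := by
    rw [Set.image_add_right, measure_preimage_add_right]
  have h2 : volume ((fun x => a0 + x) '' B) = volume B := by
    rw [Set.image_add_left, measure_preimage_add]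
  have hm2 : MeasurableSet ((fun x => a0 + x) '' B) :=
    (hB.image (continuous_const.add continuous_id)).measurableSet
  have hsub : (fun x => x + b0) '' A ∪ (fun x => a0 + x) '' B ⊆ C := by
    rintro z (⟨a, ha, rfl⟩ | ⟨b, hb, rfl⟩)
    · exact h a ha b0 hb0
    · exact h a0 ha0 b hb
  have hint : (fun x => x + b0) '' A ∩ (fun x => a0 + x) '' B ⊆ {a0 + b0} := by
    rintro z ⟨⟨a, ha, rfl⟩, ⟨b, hb, hab⟩⟩
    have := hamax' a ha
    have := hbmin' b hb
    simp only at hab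
    simp only [mem_singleton_iff]
    linarith
  have hunion := measure_union_add_inter ((fun x => x + b0) '' A) hm2 (μ := volume)
  have hz : volume ((fun x => x + b0) '' A ∩ (fun x => a0 + x) '' B) = 0 :=
    measure_mono_null hint (by simp)
  rw [hz, add_zero, h1, h2] at hunion
  rw [← hunion]
  exact measure_mono hsub

lemma bm_meas (A B C : Set ℝ) (hA : MeasurableSet A) (hB : MeasurableSet B) (hAn : A.Nonempty)
    (hBn : B.Nonempty) (h : ∀ a ∈ A, ∀ b ∈ B, a + b ∈ C) :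
    volume A + volume B ≤ volume C := by
  obtain ⟨a1, ha1⟩ := hAn
  obtain ⟨b1, hb1⟩ := hBn
  have key : ∀ K ⊆ A, IsCompact K → ∀ L ⊆ B, IsCompact L → volume K + volume L ≤ volume C := by
    intro K hK hKc L hL hLc
    have := bm_compact (K ∪ {a1}) (L ∪ {b1}) C (hKc.union isCompact_singleton)
      (hLc.union isCompact_singleton) (by simp) (by simp) ?_
    · refine le_trans (add_le_add (measure_mono subset_union_left)
        (measure_mono subset_union_left)) this
    · intro a ha b hb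
      refine h a ?_ b ?_
      · rcases ha with ha | ha
        · exact hK ha
        · rw [mem_singleton_iff.1 ha]; exact ha1
      · rcases hb with hb | hb
        · exact hL hb
        · rw [mem_singleton_iff.1 hb]; exact hb1
  have h3 : (⨆ K : Set ℝ, ⨆ (_ : K ⊆ A ∧ IsCompact K), volume K)
      + (⨆ K : Set ℝ, ⨆ (_ : K ⊆ B ∧ IsCompact K), volume K) ≤ volume C :=
    ENNReal.biSup_add_biSup_le' (p := fun K => K ⊆ A ∧ IsCompact K)
      (q := fun K => K ⊆ B ∧ IsCompact K) ⟨∅, by simp, isCompact_empty⟩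
      ⟨∅, by simp, isCompact_empty⟩ (fun K hK L hL => key K hK.1 hK.2 L hL.1 hL.2)
  have e : ∀ S : Set ℝ, MeasurableSet S → volume S =
      (⨆ K : Set ℝ, ⨆ (_ : K ⊆ S ∧ IsCompact K), volume K) := by
    intro S hS
    rw [hS.measure_eq_iSup_isCompact]
    congr 1
    funext K
    rw [iSup_and]
  rw [e A hA, e B hB]
  exact h3

lemma bm_half (A B C : Set ℝ) (hA : MeasurableSet A) (hB : MeasurableSet B) (hAn : A.Nonempty)
    (hBn : B.Nonempty) (h : ∀ a ∈ A, ∀ b ∈ B, (1 / 2 : ℝ) • (a + b) ∈ C) :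
    volume A + volume B ≤ 2 * volume C := by
  have h1 := bm_meas A B ((2 : ℝ) • C) hA hB hAn hBn ?_
  · rw [Measure.addHaar_smul] at h1
    simpa using h1
  · intro a ha b hb
    refine ⟨_, h a ha b hb, ?_⟩
    simp

/-- normalised one-dimensional inequality -/
lemma pl_norm (f g h : ℝ → ℝ≥0∞) (hf : Measurable f) (hg : Measurable g) (hh : Measurable h)
    (hf1 : ∀ x, f x ≤ 1) (hg1 : ∀ x, g x ≤ 1)
    (hfs : ∀ t : ℝ≥0∞, t < 1 → ∃ x, t < f x) (hgs : ∀ t : ℝ≥0∞, t < 1 → ∃ x, t < g x)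
    (H : ∀ x y, f x * g y ≤ h ((1 / 2 : ℝ) • (x + y)) ^ 2) :
    (∫⁻ x, f x) + (∫⁻ x, g x) ≤ 2 * (∫⁻ x, h x) := by
  have hft : ∀ x, f x ≠ ⊤ := fun x => ((hf1 x).trans_lt ENNReal.one_lt_top).ne
  have hgt : ∀ x, g x ≠ ⊤ := fun x => ((hg1 x).trans_lt ENNReal.one_lt_top).ne
  set k : ℝ → ℝ≥0∞ := fun x => min (h x) 1 with hk
  have hkm : Measurable k := hh.min measurable_const
  have hkt : ∀ x, k x ≠ ⊤ := fun x => ((min_le_right _ _).trans_lt ENNReal.one_lt_top).ne
  have layer : ∀ u : ℝ → ℝ≥0∞, Measurable u → (∀ x, u x ≠ ⊤) →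
      ∫⁻ x, u x = ∫⁻ t in Ioi (0 : ℝ), volume {x | t < (u x).toReal} := by
    intro u hu hut
    rw [← lintegral_eq_lintegral_meas_lt volume (f := fun x => (u x).toReal)
      (Filter.Eventually.of_forall fun x => ENNReal.toReal_nonneg) hu.ennreal_toReal.aemeasurable]
    refine lintegral_congr fun x => ?_
    exact (ENNReal.ofReal_toReal (hut x)).symm
  have hkh : ∫⁻ x, k x ≤ ∫⁻ x, h x := lintegral_mono fun x => min_le_left _ _
  refine le_trans ?_ (mul_le_mul_right hkh 2)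
  rw [layer f hf hft, layer g hg hgt, layer k hkm hkt]
  refine (le_lintegral_add _ _).trans ?_
  rw [← lintegral_const_mul' _ _ (by norm_num)]
  refine setLIntegral_mono' measurableSet_Ioi fun t ht => ?_
  have ht0 : (0 : ℝ) < t := ht
  by_cases ht1 : t < 1
  · have hto : ENNReal.ofReal t < 1 := by
      rw [← ENNReal.ofReal_one]
      exact (ENNReal.ofReal_lt_ofReal_iff one_pos).2 ht1
    have lt_iff : ∀ u : ℝ≥0∞, u ≠ ⊤ → (t < u.toReal ↔ ENNReal.ofReal t < u) := by
      intro u hu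
      rw [ENNReal.ofReal_lt_iff_lt_toReal ht0.le hu]
    refine bm_half _ _ _ (measurableSet_lt measurable_const hf.ennreal_toReal)
      (measurableSet_lt measurable_const hg.ennreal_toReal) ?_ ?_ ?_
    · obtain ⟨x, hx⟩ := hfs _ hto
      exact ⟨x, (lt_iff _ (hft x)).2 hx⟩
    · obtain ⟨x, hx⟩ := hgs _ hto
      exact ⟨x, (lt_iff _ (hgt x)).2 hx⟩
    · intro a ha b hb
      have ha' := (lt_iff _ (hft a)).1 ha
      have hb' := (lt_iff _ (hgt b)).1 hb
      refine (lt_iff _ (hkt _)).2 ?_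
      refine lt_min ?_ hto
      have h1 := H a b
      have h2 : ENNReal.ofReal t * ENNReal.ofReal t < f a * g b := ENNReal.mul_lt_mul ha' hb'
      have h3 := h2.trans_le h1
      rw [← sq] at h3
      exact lt_of_not_ge fun hle => absurd h3 (not_lt.2 (pow_le_pow_left' hle 2))
  · have : {x | t < (f x).toReal} = ∅ := by
      ext x
      simp only [mem_ofPred_eq, mem_empty_iff_false, iff_false, not_lt]
      push Not at ht1
      refine le_trans ?_ ht1
      exact ENNReal.toReal_le_of_le_ofReal one_pos.le (by simpa using hf1 x)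
    rw [this]
    have : {x | t < (g x).toReal} = ∅ := by
      ext x
      simp only [mem_ofPred_eq, mem_empty_iff_false, iff_false, not_lt]
      push Not at ht1
      refine le_trans ?_ ht1
      exact ENNReal.toReal_le_of_le_ofReal one_pos.le (by simpa using hg1 x)
    rw [this]
    simp

/-- AM-GM in ENNReal -/
lemma amgm (a b : ℝ≥0∞) : 4 * (a * b) ≤ (a + b) ^ 2 := by
  by_cases ha : a = ⊤
  · subst ha; simp
  by_cases hb : b = ⊤
  · subst hb; simp
  lift a to ℝ≥0 using ha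
  lift b to ℝ≥0 using hb
  norm_cast
  rw [← NNReal.coe_le_coe]
  push_cast
  nlinarith [sq_nonneg ((a : ℝ) - b)]

/-- one-dimensional inequality for bounded functions -/
lemma pl_bdd (f g h : ℝ → ℝ≥0∞) (hf : Measurable f) (hg : Measurable g) (hh : Measurable h)
    (hf1 : (⨆ x, f x) ≠ ⊤) (hg1 : (⨆ x, g x) ≠ ⊤)
    (H : ∀ x y, f x * g y ≤ h ((1 / 2 : ℝ) • (x + y)) ^ 2) :
    (∫⁻ x, f x) * (∫⁻ x, g x) ≤ (∫⁻ x, h x) ^ 2 := by
  set F := ⨆ x, f x with hF
  set G := ⨆ x, g x with hG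
  by_cases hF0 : F = 0
  · have : ∀ x, f x = 0 := fun x => le_antisymm ((le_iSup f x).trans hF0.le) (by simp)
    simp [this]
  by_cases hG0 : G = 0
  · have : ∀ x, g x = 0 := fun x => le_antisymm ((le_iSup g x).trans hG0.le) (by simp)
    simp [this]
  obtain ⟨c, hc⟩ : ∃ c : ℝ≥0∞, c ^ 2 = F * G := by
    refine ⟨(F * G) ^ (1 / 2 : ℝ), ?_⟩
    rw [← ENNReal.rpow_natCast, ← ENNReal.rpow_mul]
    norm_num
  have hc0 : c ≠ 0 := by
    rintro rfl
    have : F * G ≠ 0 := mul_ne_zero hF0 hG0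
    apply this
    rw [← hc]; simp
  have hct : c ≠ ⊤ := by
    rintro rfl
    have : F * G ≠ ⊤ := ENNReal.mul_ne_top hf1 hg1
    apply this
    rw [← hc]; simp
  have hlt : ∀ (u : ℝ → ℝ≥0∞) (U : ℝ≥0∞), U = ⨆ x, u x → U ≠ 0 → U ≠ ⊤ →
      ∀ t : ℝ≥0∞, t < 1 → ∃ x, t < U⁻¹ * u x := by
    intro u U hU hU0 hUt t ht
    have h1 : U * t < U := by
      conv_rhs => rw [← mul_one U]
      exact (ENNReal.mul_lt_mul_iff_right hU0 hUt).2 ht
    rw [hU] at h1
    nth_rewrite 2 [← hU] at h1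
    rw [hU] at h1
    obtain ⟨x, hx⟩ := lt_iSup_iff.1 h1
    refine ⟨x, ?_⟩
    rw [← hU] at hx
    have h2 : U * t < U * (U⁻¹ * u x) := by
      rw [← mul_assoc, ENNReal.mul_inv_cancel hU0 hUt, one_mul]
      exact hx
    exact (ENNReal.mul_lt_mul_iff_right hU0 hUt).1 h2
  have key := pl_norm (fun x => F⁻¹ * f x) (fun x => G⁻¹ * g x) (fun x => c⁻¹ * h x)
    (hf.const_mul _) (hg.const_mul _) (hh.const_mul _) ?_ ?_ ?_ ?_ ?_
  · rw [lintegral_const_mul _ hf, lintegral_const_mul _ hg, lintegral_const_mul _ hh] at key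
    set I := ∫⁻ x, f x
    set J := ∫⁻ x, g x
    set K := ∫⁻ x, h x
    have h1 : 4 * ((F⁻¹ * I) * (G⁻¹ * J)) ≤ (2 * (c⁻¹ * K)) ^ 2 :=
      (amgm _ _).trans (pow_le_pow_left' key 2)
    have h2 : (2 * (c⁻¹ * K)) ^ 2 = 4 * ((F * G)⁻¹ * K ^ 2) := by
      rw [← hc, ENNReal.inv_pow]
      ring
    have h3 : 4 * ((F⁻¹ * I) * (G⁻¹ * J)) = 4 * ((F * G)⁻¹ * (I * J)) := by
      rw [ENNReal.mul_inv (Or.inl hF0) (Or.inl hf1)]
      ring
    rw [h2, h3] at h1
    have h4 := (ENNReal.mul_le_mul_iff_right (by norm_num) (by norm_num)).1 h1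
    have h5 : (F * G)⁻¹ ≠ 0 := ENNReal.inv_ne_zero.2 (ENNReal.mul_ne_top hf1 hg1)
    have h6 : (F * G)⁻¹ ≠ ⊤ := ENNReal.inv_ne_top.2 (mul_ne_zero hF0 hG0)
    exact (ENNReal.mul_le_mul_iff_right h5 h6).1 h4
  · intro x
    rw [← ENNReal.inv_mul_cancel hF0 hf1]
    exact mul_le_mul_right (le_iSup f x) _
  · intro x
    rw [← ENNReal.inv_mul_cancel hG0 hg1]
    exact mul_le_mul_right (le_iSup g x) _
  · exact hlt f F hF hF0 hf1
  · exact hlt g G hG hG0 hg1
  · intro x y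
    have h1 : (c⁻¹ * h ((1 / 2 : ℝ) • (x + y))) ^ 2 = (F * G)⁻¹ * h ((1 / 2 : ℝ) • (x + y)) ^ 2 := by
      rw [← hc, ENNReal.inv_pow]
      ring
    have h3 : F⁻¹ * f x * (G⁻¹ * g y) = (F * G)⁻¹ * (f x * g y) := by
      rw [ENNReal.mul_inv (Or.inl hF0) (Or.inl hf1)]
      ring
    show F⁻¹ * f x * (G⁻¹ * g y) ≤ (c⁻¹ * h ((1 / 2 : ℝ) • (x + y))) ^ 2
    rw [h1, h3]
    exact mul_le_mul_right (H x y) _

/-- one-dimensional Prekopa-Leindler -/
lemma pl_one (f g h : ℝ → ℝ≥0∞) (hf : Measurable f) (hg : Measurable g) (hh : Measurable h)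
    (H : ∀ x y, f x * g y ≤ h ((1 / 2 : ℝ) • (x + y)) ^ 2) :
    (∫⁻ x, f x) * (∫⁻ x, g x) ≤ (∫⁻ x, h x) ^ 2 := by
  have tr : ∀ u : ℝ → ℝ≥0∞, Measurable u →
      ∫⁻ x, u x = ⨆ n : ℕ, ∫⁻ x, min (u x) n := by
    intro u hu
    rw [← lintegral_iSup (fun n => hu.min measurable_const)]
    · refine lintegral_congr fun x => ?_
      refine le_antisymm ?_ (iSup_le fun n => min_le_left _ _)
      by_cases hx : u x = ⊤
      · rw [hx]
        simp [ENNReal.iSup_natCast]
      · obtain ⟨n, hn⟩ := ENNReal.exists_nat_gt hx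
        refine le_trans ?_ (le_iSup _ n)
        exact le_min le_rfl hn.le
    · intro m n hmn x
      exact min_le_min le_rfl (by exact_mod_cast hmn)
  rw [tr f hf, tr g hg, ENNReal.iSup_mul]
  refine iSup_le fun n => ?_
  rw [ENNReal.mul_iSup]
  refine iSup_le fun m => ?_
  refine pl_bdd _ _ _ (hf.min measurable_const) (hg.min measurable_const) hh ?_ ?_ ?_
  · refine ((iSup_le fun x => min_le_right _ _).trans_lt (ENNReal.natCast_lt_top n)).ne
  · refine ((iSup_le fun x => min_le_right _ _).trans_lt (ENNReal.natCast_lt_top m)).ne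
  · intro x y
    exact (mul_le_mul' (min_le_left _ _) (min_le_left _ _)).trans (H x y)

/-- The Prekopa-Leindler property of a measure space which is also a vector space. -/
def PLp (E : Type) [AddCommGroup E] [Module ℝ E] [MeasureSpace E] : Prop :=
  ∀ f g h : E → ℝ≥0∞, Measurable f → Measurable g → Measurable h →
    (∀ x y, f x * g y ≤ h ((1 / 2 : ℝ) • (x + y)) ^ 2) →
    (∫⁻ x, f x) * (∫⁻ x, g x) ≤ (∫⁻ x, h x) ^ 2

lemma PLp_real : PLp ℝ := fun f g h hf hg hh H => pl_one f g h hf hg hh H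

lemma PLp_prod (E₁ E₂ : Type) [AddCommGroup E₁] [Module ℝ E₁] [MeasureSpace E₁]
    [AddCommGroup E₂] [Module ℝ E₂] [MeasureSpace E₂]
    [SFinite (volume : Measure E₁)] [SFinite (volume : Measure E₂)]
    (h1 : PLp E₁) (h2 : PLp E₂) : PLp (E₁ × E₂) := by
  intro f g h hf hg hh H
  have e : ∀ u : E₁ × E₂ → ℝ≥0∞, Measurable u →
      ∫⁻ x, u x = ∫⁻ x : E₁, ∫⁻ y : E₂, u (x, y) := by
    intro u hu
    rw [Measure.volume_eq_prod, lintegral_prod _ hu.aemeasurable]
  rw [e f hf, e g hg, e h hh]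
  refine h1 _ _ _ hf.lintegral_prod_right' hg.lintegral_prod_right' hh.lintegral_prod_right' ?_
  intro x y
  refine h2 _ _ _ (hf.comp measurable_prodMk_left) (hg.comp measurable_prodMk_left)
    (hh.comp measurable_prodMk_left) ?_
  intro x' y'
  exact H (x, x') (y, y')

lemma PLp_transfer (E₁ E₂ : Type) [AddCommGroup E₁] [Module ℝ E₁] [MeasureSpace E₁]
    [AddCommGroup E₂] [Module ℝ E₂] [MeasureSpace E₂] (e : E₁ ≃ᵐ E₂)
    (he : MeasurePreserving e volume volume)
    (hlin : ∀ x y, e.symm ((1 / 2 : ℝ) • (x + y)) = (1 / 2 : ℝ) • (e.symm x + e.symm y))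
    (h2 : PLp E₂) : PLp E₁ := by
  intro f g h hf hg hh H
  have he' : MeasurePreserving e.symm volume volume := he.symm e
  rw [← he'.lintegral_comp hf, ← he'.lintegral_comp hg, ← he'.lintegral_comp hh]
  refine h2 _ _ _ (hf.comp e.symm.measurable) (hg.comp e.symm.measurable)
    (hh.comp e.symm.measurable) ?_
  intro x y
  show f (e.symm x) * g (e.symm y) ≤ h (e.symm ((1 / 2 : ℝ) • (x + y))) ^ 2
  rw [hlin]
  exact H _ _

lemma PLp_fin (n : ℕ) : PLp (Fin n → ℝ) := by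
  induction n with
  | zero =>
    intro f g h hf hg hh H
    rw [lintegral_unique, lintegral_unique, lintegral_unique]
    have hv : (volume : Measure (Fin 0 → ℝ)) univ = 1 := by
      simp [volume_pi]
    rw [hv, mul_one, mul_one, mul_one]
    have hd : ∀ a b : Fin 0 → ℝ, a = b := fun a b => Subsingleton.elim a b
    have := H default default
    rw [hd ((1 / 2 : ℝ) • ((default : Fin 0 → ℝ) + default)) default] at this
    convert this
  | succ n ih =>
    refine PLp_transfer _ (ℝ × (Fin n → ℝ))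
      (MeasurableEquiv.piFinSuccAbove (fun _ => ℝ) 0)
      (volume_preserving_piFinSuccAbove (fun _ => ℝ) 0) ?_ (PLp_prod _ _ PLp_real ih)
    intro x y
    ext i
    refine Fin.cases ?_ (fun j => ?_) i
    · simp [MeasurableEquiv.piFinSuccAbove]
      ring
    · simp [MeasurableEquiv.piFinSuccAbove]
      ring

/-- Prekopa-Leindler at the midpoint. -/
theorem prekopa_leindler_half (d : ℕ) (f g h : EuclideanSpace ℝ (Fin d) → ℝ≥0∞)
    (hf : Measurable f) (hg : Measurable g) (hh : Measurable h)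
    (H : ∀ x y, f x * g y ≤ h ((1 / 2 : ℝ) • (x + y)) ^ 2) :
    (∫⁻ x, f x) * (∫⁻ x, g x) ≤ (∫⁻ x, h x) ^ 2 := by
  refine PLp_transfer (EuclideanSpace ℝ (Fin d)) (Fin d → ℝ)
    (MeasurableEquiv.toLp 2 (Fin d → ℝ)).symm
    (EuclideanSpace.volume_preserving_symm_measurableEquiv_toLp (Fin d)) ?_ (PLp_fin d) f g h
    hf hg hh H
  intro x y
  rfl

end Crest.Agent.R82.PL
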