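import Mathlib
import Crest.Prelude.Def_QuadraticTransport
import Crest.Agent.R82.SemiDiscrete

/-! Row 82 (S0109): skeleton of the core (exact statements of the pieces (B), (C), (E), (F)).
Each piece is to be proved in its own file, in namespace `Crest.Agent.R82`:
(B) `Crest/Agent/R82/Cell.lean` theorem `cell_estimate`
(C) `Crest/Agent/R82/StrongConv.lean` theorem `strong_convexity`
(E) `Crest/Agent/R82/Mixed.lean` theorem `mixed_difference`
(F) `Crest/Agent/R82/PotStab.lean` theorem `potential_stability`. -/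

set_option autoImplicit false
open MeasureTheory Set
open scoped ENNReal NNReal
open Crest.AnalysisR.OT

namespace Crest.Agent.R82.Skeleton

/-- The perturbed source `(1+g)ρ`. -/
noncomputable def tilt {d : ℕ} (K : Set (EuclideanSpace ℝ (Fin d)))
    (g : EuclideanSpace ℝ (Fin d) → ℝ) : Measure (EuclideanSpace ℝ (Fin d)) :=
  (uniformProbOn K).withDensity fun x => ENNReal.ofReal (1 + g x)

/-- (B) barycentre estimate (from Prekopa-Leindler on the cells). -/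
theorem cell_estimate (d : ℕ) (K : Set (EuclideanSpace ℝ (Fin d))) (hKc : IsCompact K)
    (hKv : Convex ℝ K) (hKi : (interior K).Nonempty) :
    ∃ C : ℝ, 0 ≤ C ∧ ∀ (ι : Type) [Fintype ι] [Nonempty ι] (m : ι → ℝ)
      (y : ι → EuclideanSpace ℝ (Fin d)) (ψ₀ ψ₁ : ι → ℝ) (g : EuclideanSpace ℝ (Fin d) → ℝ),
      (∀ i, 0 < m i) → Function.Injective y → Measurable g → (∀ x, |g x| ≤ 1 / 2) →
      (∀ i, (uniformProbOn K).real (cell y ψ₀ i) = m i) →
      (∀ i, (tilt K g).real (cell y ψ₁ i) = m i) →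
      ∑ i, (m i)⁻¹ * ‖(∫ x in cell y ψ₀ i, x ∂(uniformProbOn K))
          - ∫ x in cell y ψ₁ i, x ∂(tilt K g)‖ ^ 2 ≤ C * ∫ x, g x ^ 2 ∂(uniformProbOn K) := by
  sorry

/-- (C) strong convexity of the semi-dual functional (from Prekopa-Leindler). -/
theorem strong_convexity (d : ℕ) (K : Set (EuclideanSpace ℝ (Fin d))) (hKc : IsCompact K)
    (hKv : Convex ℝ K) (hKi : (interior K).Nonempty) (L : ℝ) :
    ∃ c : ℝ, 0 < c ∧ ∀ (ι : Type) [Fintype ι] [Nonempty ι] (m : ι → ℝ)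
      (y : ι → EuclideanSpace ℝ (Fin d)) (ψ₀ ψ₁ : ι → ℝ),
      (∀ i, ‖y i‖ ≤ L) → (∀ χ, semiDual (uniformProbOn K) m y ψ₀ ≤ semiDual (uniformProbOn K) m y χ) →
      ∃ a : ℝ, c * ∫ x, (phi y ψ₁ x - phi y ψ₀ x - a) ^ 2 ∂(uniformProbOn K) ≤
        semiDual (uniformProbOn K) m y ψ₁ - semiDual (uniformProbOn K) m y ψ₀ := by
  sorry

/-- (E) mixed difference estimate. -/
theorem mixed_difference (d : ℕ) (K : Set (EuclideanSpace ℝ (Fin d))) (hKc : IsCompact K)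
    (hKv : Convex ℝ K) (hKi : (interior K).Nonempty) :
    ∃ C : ℝ, 0 ≤ C ∧ ∀ (ι : Type) [Fintype ι] [Nonempty ι] (m : ι → ℝ)
      (y z : ι → EuclideanSpace ℝ (Fin d)) (g : EuclideanSpace ℝ (Fin d) → ℝ),
      (∀ i, 0 < m i) → ∑ i, m i = 1 → Measurable g → (∀ x, |g x| ≤ 1 / 2) →
      ∫ x, g x ∂(uniformProbOn K) = 0 →
      (TT (uniformProbOn K) m z - TT (uniformProbOn K) m y)
        - (TT (tilt K g) m z - TT (tilt K g) m y) ≤
      C * √(∫ x, g x ^ 2 ∂(uniformProbOn K)) * √(∑ i, m i * ‖y i - z i‖ ^ 2) := by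
  sorry

/-- (F) stability of the potentials. -/
theorem potential_stability (d : ℕ) (K : Set (EuclideanSpace ℝ (Fin d))) (hKc : IsCompact K)
    (hKv : Convex ℝ K) (hKi : (interior K).Nonempty) (L : ℝ) :
    ∃ C : ℝ, 0 ≤ C ∧ ∀ (ι : Type) [Fintype ι] [Nonempty ι] (m : ι → ℝ)
      (y z : ι → EuclideanSpace ℝ (Fin d)) (ψ ψ' : ι → ℝ),
      (∀ i, 0 < m i) → ∑ i, m i = 1 → (∀ i, ‖y i‖ ≤ L) → (∀ i, ‖z i‖ ≤ L) →
      (∀ χ, semiDual (uniformProbOn K) m y ψ ≤ semiDual (uniformProbOn K) m y χ) →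
      (∀ χ, semiDual (uniformProbOn K) m z ψ' ≤ semiDual (uniformProbOn K) m z χ) →
      ∃ a : ℝ, ∫ x, (phi y ψ x - phi z ψ' x - a) ^ 2 ∂(uniformProbOn K) ≤
        C * ∑ i, m i * ‖y i - z i‖ ^ 2 := by
  sorry

end Crest.Agent.R82.Skeleton
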