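import Mathlib
import Crest.Prelude.Def_QuadraticTransport
import Crest.Agent.R82.SemiDiscrete

/-! Row 82 (S0109), piece (C): strong convexity of the semi-dual functional, from the
Prekopa-Leindler inequality. -/

set_option autoImplicit false
set_option linter.unusedSectionVars false
open MeasureTheory Set Filter Topology
open scoped ENNReal NNReal

namespace Crest.Agent.R82

section Abstract

variable {X : Type*} [MeasurableSpace X] {ρ : Measure X} [IsProbabilityMeasure ρ]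

/-- Bounded measurable functions are integrable. -/
theorem integrable_of_abs_le {f : X → ℝ} (hf : Measurable f) {B : ℝ}
    (hB : ∀ᵐ x ∂ρ, |f x| ≤ B) : Integrable f ρ :=
  Integrable.of_bound hf.aestronglyMeasurable B (by simpa only [Real.norm_eq_abs] using hB)

theorem one_add_sq_div_two_le_cosh (x : ℝ) : 1 + x ^ 2 / 2 ≤ Real.cosh x := by
  have key : ∀ y : ℝ, 0 ≤ y → y ^ 2 ≤ Real.sinh y ^ 2 := fun y hy => by
    have := Real.self_le_sinh_iff.2 hy
    exact pow_le_pow_left₀ hy this 2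
  have h1 : (x / 2) ^ 2 ≤ Real.sinh (x / 2) ^ 2 := by
    rcases le_total 0 (x / 2) with h | h
    · exact key _ h
    · have := key (-(x / 2)) (by linarith)
      rw [Real.sinh_neg] at this
      nlinarith [this]
  have h2 : Real.cosh x = 1 + 2 * Real.sinh (x / 2) ^ 2 := by
    have h3 := Real.cosh_two_mul (x / 2)
    rw [Real.cosh_sq, show 2 * (x / 2) = x by ring] at h3
    rw [h3]; ring
  rw [h2]; nlinarith [h1]

theorem exp_le_one_add_mul {B t : ℝ} (hB : 0 < B) (h0 : 0 ≤ t) (h1 : t ≤ B) :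
    Real.exp t ≤ 1 + (Real.exp B - 1) / B * t := by
  have e1 : 0 ≤ 1 - t / B := by rw [sub_nonneg, div_le_one hB]; exact h1
  have e2 : 0 ≤ t / B := by positivity
  have hconv := convexOn_exp.2 (mem_univ (0 : ℝ)) (mem_univ B) e1 e2 (by ring)
  simp only [smul_eq_mul, mul_zero, zero_add, Real.exp_zero, mul_one] at hconv
  rw [div_mul_cancel₀ _ hB.ne'] at hconv
  have : 1 - t / B + t / B * Real.exp B = 1 + (Real.exp B - 1) / B * t := by
    field_simp; ring
  linarith

/-- The analytic core of (C): from the Prekopa-Leindler inequality for `exp (-φ)` to a lower bound of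
the midpoint convexity defect by the variance. -/
theorem defect_ge_var {a b h : X → ℝ} (ha : Measurable a) (hb : Measurable b) (hh : Measurable h)
    {B B' : ℝ} (hB' : 0 < B') (haB : ∀ᵐ x ∂ρ, |a x| ≤ B) (hbB : ∀ᵐ x ∂ρ, |b x| ≤ B)
    (hD0 : ∀ᵐ x ∂ρ, 0 ≤ (a x + b x) / 2 - h x) (hD1 : ∀ᵐ x ∂ρ, (a x + b x) / 2 - h x ≤ B')
    (hPL : (∫ x, Real.exp (-a x) ∂ρ) * (∫ x, Real.exp (-b x) ∂ρ) ≤ (∫ x, Real.exp (-h x) ∂ρ) ^ 2) :
    ∫ z, ((b z.1 - a z.1) - (b z.2 - a z.2)) ^ 2 ∂(ρ.prod ρ)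
      ≤ 8 * Real.exp (4 * B) * (2 * ((Real.exp B' - 1) / B') + ((Real.exp B' - 1) / B') ^ 2 * B') *
        ∫ x, ((a x + b x) / 2 - h x) ∂ρ := by
  set c : ℝ := (Real.exp B' - 1) / B' with hc
  have hc0 : 0 ≤ c := by
    have : 1 ≤ Real.exp B' := Real.one_le_exp hB'.le
    rw [hc]; exact div_nonneg (by linarith) hB'.le
  set w : X → ℝ := fun x => Real.exp (-((a x + b x) / 2)) with hw
  have hwm : Measurable w := by fun_prop
  have hwB : ∀ᵐ x ∂ρ, w x ≤ Real.exp B := by
    filter_upwards [haB, hbB] with x h1 h2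
    refine Real.exp_le_exp.2 ?_
    linarith [(abs_le.1 h1).1, (abs_le.1 h2).1]
  have hwB' : ∀ᵐ x ∂ρ, Real.exp (-B) ≤ w x := by
    filter_upwards [haB, hbB] with x h1 h2
    refine Real.exp_le_exp.2 ?_
    linarith [(abs_le.1 h1).2, (abs_le.1 h2).2]
  have hw0 : ∀ x, 0 < w x := fun x => Real.exp_pos _
  have hwi : Integrable w ρ := integrable_of_abs_le hwm (B := Real.exp B) (by
    filter_upwards [hwB] with x hx
    rw [abs_of_pos (hw0 x)]; exact hx)
  have hDi : Integrable (fun x => (a x + b x) / 2 - h x) ρ :=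
    integrable_of_abs_le (by fun_prop) (B := B') (by
      filter_upwards [hD0, hD1] with x h1 h2
      rw [abs_of_nonneg h1]; exact h2)
  have hai : Integrable (fun x => Real.exp (-a x)) ρ :=
    integrable_of_abs_le (by fun_prop) (B := Real.exp B) (by
      filter_upwards [haB] with x h1
      rw [abs_of_pos (Real.exp_pos _)]
      exact Real.exp_le_exp.2 (by linarith [(abs_le.1 h1).1]))
  have hbi : Integrable (fun x => Real.exp (-b x)) ρ :=
    integrable_of_abs_le (by fun_prop) (B := Real.exp B) (by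
      filter_upwards [hbB] with x h1
      rw [abs_of_pos (Real.exp_pos _)]
      exact Real.exp_le_exp.2 (by linarith [(abs_le.1 h1).1]))
  set δ : ℝ := ∫ x, ((a x + b x) / 2 - h x) ∂ρ with hδ
  set W : ℝ := ∫ x, w x ∂ρ with hW
  have hδ0 : 0 ≤ δ := integral_nonneg_of_ae hD0
  have hδ1 : δ ≤ B' := by
    have := integral_mono_ae hDi (integrable_const B') hD1
    simpa using this
  have hW0 : 0 ≤ W := integral_nonneg fun x => (hw0 x).le
  have hW1 : W ≤ Real.exp B := by
    have := integral_mono_ae hwi (integrable_const (Real.exp B)) hwB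
    simpa using this
  -- upper bound of the right hand side of PL
  have hh1 : ∫ x, Real.exp (-h x) ∂ρ ≤ W + c * Real.exp B * δ := by
    have : ∫ x, Real.exp (-h x) ∂ρ
        ≤ ∫ x, (w x + c * Real.exp B * ((a x + b x) / 2 - h x)) ∂ρ := by
      refine integral_mono_of_nonneg (Eventually.of_forall fun x => (Real.exp_pos _).le)
        (hwi.add (hDi.const_mul _)) ?_
      filter_upwards [hD0, hD1, hwB] with x h0 h1 h2
      have e1 : Real.exp (-h x) = w x * Real.exp ((a x + b x) / 2 - h x) := by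
        rw [hw, ← Real.exp_add]; congr 1; ring
      rw [e1]
      have e2 := exp_le_one_add_mul hB' h0 h1
      calc w x * Real.exp ((a x + b x) / 2 - h x)
          ≤ w x * (1 + c * ((a x + b x) / 2 - h x)) := by
            gcongr
        _ = w x + c * w x * ((a x + b x) / 2 - h x) := by ring
        _ ≤ w x + c * Real.exp B * ((a x + b x) / 2 - h x) := by gcongr
    rw [integral_add hwi (hDi.const_mul _), integral_const_mul] at this
    exact this
  have hh0 : 0 ≤ ∫ x, Real.exp (-h x) ∂ρ := integral_nonneg fun x => (Real.exp_pos _).le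
  have hR : (∫ x, Real.exp (-h x) ∂ρ) ^ 2
      ≤ W ^ 2 + Real.exp (2 * B) * (2 * c + c ^ 2 * B') * δ := by
    calc (∫ x, Real.exp (-h x) ∂ρ) ^ 2 ≤ (W + c * Real.exp B * δ) ^ 2 := by gcongr
      _ = W ^ 2 + 2 * c * (W * Real.exp B) * δ + c ^ 2 * (Real.exp B * Real.exp B) * (δ * δ) := by
          ring
      _ ≤ W ^ 2 + 2 * c * (Real.exp B * Real.exp B) * δ
          + c ^ 2 * (Real.exp B * Real.exp B) * (B' * δ) := by
          gcongr
      _ = W ^ 2 + Real.exp (2 * B) * (2 * c + c ^ 2 * B') * δ := by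
          rw [two_mul B, Real.exp_add]; ring
  -- lower bound of the left hand side of PL
  have hprod1 : ∫ z, Real.exp (-a z.1) * Real.exp (-b z.2) ∂(ρ.prod ρ)
      = (∫ x, Real.exp (-a x) ∂ρ) * (∫ x, Real.exp (-b x) ∂ρ) :=
    integral_prod_mul (fun x => Real.exp (-a x)) (fun x => Real.exp (-b x))
  have hprod2 : ∫ z, Real.exp (-b z.1) * Real.exp (-a z.2) ∂(ρ.prod ρ)
      = (∫ x, Real.exp (-b x) ∂ρ) * (∫ x, Real.exp (-a x) ∂ρ) :=
    integral_prod_mul (fun x => Real.exp (-b x)) (fun x => Real.exp (-a x))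
  have hprodw : ∫ z, w z.1 * w z.2 ∂(ρ.prod ρ) = W * W := integral_prod_mul w w
  have hu : ∀ᵐ x ∂ρ, |b x - a x| ≤ 2 * B := by
    filter_upwards [haB, hbB] with x h1 h2
    rw [abs_le]
    constructor <;> linarith [(abs_le.1 h1).1, (abs_le.1 h2).1, (abs_le.1 h1).2, (abs_le.1 h2).2]
  have hfst : ∀ {p : X → Prop}, (∀ᵐ x ∂ρ, p x) → ∀ᵐ z ∂(ρ.prod ρ), p z.1 := fun hp =>
    Measure.quasiMeasurePreserving_fst.ae hp
  have hsnd : ∀ {p : X → Prop}, (∀ᵐ x ∂ρ, p x) → ∀ᵐ z ∂(ρ.prod ρ), p z.2 := fun hp =>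
    Measure.quasiMeasurePreserving_snd.ae hp
  have hVi : Integrable (fun z : X × X => ((b z.1 - a z.1) - (b z.2 - a z.2)) ^ 2) (ρ.prod ρ) := by
    refine integrable_of_abs_le (by fun_prop) (B := (4 * B) ^ 2) ?_
    filter_upwards [hfst hu, hsnd hu] with z h1 h2
    rw [abs_of_nonneg (sq_nonneg _)]
    apply sq_le_sq'
    · linarith [(abs_le.1 h1).1, (abs_le.1 h2).1, (abs_le.1 h1).2, (abs_le.1 h2).2]
    · linarith [(abs_le.1 h1).1, (abs_le.1 h2).1, (abs_le.1 h1).2, (abs_le.1 h2).2]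
  have hL : W ^ 2 + Real.exp (-(2 * B)) / 8 *
        ∫ z, ((b z.1 - a z.1) - (b z.2 - a z.2)) ^ 2 ∂(ρ.prod ρ)
      ≤ (∫ x, Real.exp (-a x) ∂ρ) * (∫ x, Real.exp (-b x) ∂ρ) := by
    have hmono : ∫ z, (w z.1 * w z.2 + Real.exp (-(2 * B)) / 8 *
          ((b z.1 - a z.1) - (b z.2 - a z.2)) ^ 2) ∂(ρ.prod ρ)
        ≤ ∫ z, (1 / 2 * (Real.exp (-a z.1) * Real.exp (-b z.2)) +
          1 / 2 * (Real.exp (-b z.1) * Real.exp (-a z.2))) ∂(ρ.prod ρ) := by
      refine integral_mono_ae ((hwi.mul_prod hwi).add (hVi.const_mul _))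
        (((hai.mul_prod hbi).const_mul _).add ((hbi.mul_prod hai).const_mul _)) ?_
      filter_upwards [hfst hwB', hsnd hwB'] with z h1 h2
      have e1 : 1 / 2 * (Real.exp (-a z.1) * Real.exp (-b z.2)) +
          1 / 2 * (Real.exp (-b z.1) * Real.exp (-a z.2))
          = w z.1 * w z.2 * Real.cosh (((b z.1 - a z.1) - (b z.2 - a z.2)) / 2) := by
        rw [Real.cosh_eq, hw]
        have e2 : Real.exp (-a z.1) * Real.exp (-b z.2) =
            Real.exp (-((a z.1 + b z.1) / 2)) * Real.exp (-((a z.2 + b z.2) / 2)) *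
              Real.exp (((b z.1 - a z.1) - (b z.2 - a z.2)) / 2) := by
          rw [← Real.exp_add, ← Real.exp_add, ← Real.exp_add]; congr 1; ring
        have e3 : Real.exp (-b z.1) * Real.exp (-a z.2) =
            Real.exp (-((a z.1 + b z.1) / 2)) * Real.exp (-((a z.2 + b z.2) / 2)) *
              Real.exp (-(((b z.1 - a z.1) - (b z.2 - a z.2)) / 2)) := by
          rw [← Real.exp_add, ← Real.exp_add, ← Real.exp_add]; congr 1; ring
        rw [e2, e3]; ring
      rw [e1]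
      set t : ℝ := ((b z.1 - a z.1) - (b z.2 - a z.2)) with ht
      have e4 : 1 + (t / 2) ^ 2 / 2 ≤ Real.cosh (t / 2) := by
        have h3 := one_add_sq_div_two_le_cosh (t / 2)
        exact h3
      have e5 : Real.exp (-(2 * B)) ≤ w z.1 * w z.2 := by
        have : Real.exp (-(2 * B)) = Real.exp (-B) * Real.exp (-B) := by
          rw [← Real.exp_add]; congr 1; ring
        rw [this]
        exact mul_le_mul h1 h2 (Real.exp_pos _).le (hw0 _).le
      have e6 : 0 < w z.1 * w z.2 := mul_pos (hw0 _) (hw0 _)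
      calc w z.1 * w z.2 + Real.exp (-(2 * B)) / 8 * t ^ 2
          ≤ w z.1 * w z.2 + (w z.1 * w z.2) / 8 * t ^ 2 := by gcongr
        _ = w z.1 * w z.2 * (1 + (t / 2) ^ 2 / 2) := by ring
        _ ≤ w z.1 * w z.2 * Real.cosh (t / 2) := by gcongr
    rw [integral_add (hwi.mul_prod hwi) (hVi.const_mul _), integral_const_mul, hprodw,
      integral_add ((hai.mul_prod hbi).const_mul _) ((hbi.mul_prod hai).const_mul _),
      integral_const_mul, integral_const_mul, hprod1, hprod2] at hmono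
    have : 1 / 2 * ((∫ x, Real.exp (-a x) ∂ρ) * ∫ x, Real.exp (-b x) ∂ρ) +
        1 / 2 * ((∫ x, Real.exp (-b x) ∂ρ) * ∫ x, Real.exp (-a x) ∂ρ)
        = (∫ x, Real.exp (-a x) ∂ρ) * (∫ x, Real.exp (-b x) ∂ρ) := by ring
    rw [this] at hmono
    rw [sq]; exact hmono
  have hfin := hL.trans (hPL.trans hR)
  have h8 : Real.exp (-(2 * B)) / 8 *
        ∫ z, ((b z.1 - a z.1) - (b z.2 - a z.2)) ^ 2 ∂(ρ.prod ρ)
      ≤ Real.exp (2 * B) * (2 * c + c ^ 2 * B') * δ := by linarith
  have h9 : Real.exp (2 * B) * Real.exp (-(2 * B)) = 1 := by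
    rw [← Real.exp_add]; simp
  calc ∫ z, ((b z.1 - a z.1) - (b z.2 - a z.2)) ^ 2 ∂(ρ.prod ρ)
      = 8 * Real.exp (2 * B) * (Real.exp (-(2 * B)) / 8 *
        ∫ z, ((b z.1 - a z.1) - (b z.2 - a z.2)) ^ 2 ∂(ρ.prod ρ)) := by
        linear_combination (-(∫ z, ((b z.1 - a z.1) - (b z.2 - a z.2)) ^ 2 ∂(ρ.prod ρ))) * h9
    _ ≤ 8 * Real.exp (2 * B) * (Real.exp (2 * B) * (2 * c + c ^ 2 * B') * δ) := by gcongr
    _ = 8 * Real.exp (4 * B) * (2 * c + c ^ 2 * B') * δ := by
        have : Real.exp (4 * B) = Real.exp (2 * B) * Real.exp (2 * B) := by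
          rw [← Real.exp_add]; congr 1; ring
        rw [this]; ring

end Abstract

end Crest.Agent.R82
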