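import Mathlib
import Crest.Prelude.Def_QuadraticTransport

/-! Row 82 (S0109, S0110): independent sub-tasks.  Each task should be proved in its own file
(`Crest/Agent/R82/PL.lean`, `Crest/Agent/R82/GradInterp.lean`, `Crest/Agent/S0110.lean`). -/

set_option autoImplicit false
open MeasureTheory
open scoped ENNReal NNReal

namespace Crest.Agent.R82.Tasks

/-- TASK PL.  Prekopa-Leindler inequality at the midpoint in `EuclideanSpace ℝ (Fin d)`.
(Proof: d = 1 by layer cake + one-dimensional Brunn-Minkowski on superlevel sets after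
normalising sup norms; induction on d by Fubini.) -/
theorem prekopa_leindler_half (d : ℕ) (f g h : EuclideanSpace ℝ (Fin d) → ℝ≥0∞)
    (hf : Measurable f) (hg : Measurable g) (hh : Measurable h)
    (H : ∀ x y, f x * g y ≤ h ((1 / 2 : ℝ) • (x + y)) ^ 2) :
    (∫⁻ x, f x) * (∫⁻ x, g x) ≤ (∫⁻ x, h x) ^ 2 := by
  sorry

/-- TASK GI.  Interpolation inequality for gradients of convex Lipschitz functions.
Proof: along each line parallel to a coordinate axis, with `u = φ - φ'`, `M = sup |u|` on the chord,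
`∫ |u'|^2 ≤ 8 R M` (u' = difference of two monotone functions bounded by R: layer cake / second mean
value theorem), and `M^3 ≤ 16 R ∫ u^2` or (short chord, `M > 2 R ℓ`) `∫|u'|^2 ≤ 4R^2 ℓ ≤ C (∫ u^2)^{1/3}`;
then Fubini over chords + Hölder/Jensen for the exponent 1/3, sum over coordinates. -/
theorem grad_interp (d : ℕ) (K : Set (EuclideanSpace ℝ (Fin d))) (hKc : IsCompact K)
    (hKv : Convex ℝ K) (R : ℝ≥0) :
    ∃ C : ℝ, 0 ≤ C ∧ ∀ φ φ' : EuclideanSpace ℝ (Fin d) → ℝ,
      ConvexOn ℝ Set.univ φ → ConvexOn ℝ Set.univ φ' → LipschitzWith R φ → LipschitzWith R φ' →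
      ∀ G G' : EuclideanSpace ℝ (Fin d) → EuclideanSpace ℝ (Fin d),
        (∀ᵐ x ∂(volume.restrict K), HasGradientAt φ (G x) x) →
        (∀ᵐ x ∂(volume.restrict K), HasGradientAt φ' (G' x) x) →
        ∫ x in K, ‖G x - G' x‖ ^ 2 ≤ C * (∫ x in K, (φ x - φ' x) ^ 2) ^ (1 / 3 : ℝ) := by
  sorry

end Crest.Agent.R82.Tasks
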